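import Crest.Prelude.Def_MetricFamily
import Crest.Agent.R247.Bo4_84

/-!
# Row 207 (helper8): FROZEN definitions, part 1: tensors in coordinates

`Tn n k`: components of a covariant `k`-tensor field on (an open part of) `ℝⁿ`.
`cov G T` is `∇T` (the NEW index is index `0`), `covN G T j = ∇ʲT`, `ip`, `nsq` the inner product and
the squared norm, `divT` the trace of `∇T` over the indices `0, 1`, `lapT` the rough Laplacian,
`pullT` the pull-back, `evT` the evaluation of a component array on vectors.
Scalar functions: use `R247.Bo84.gam`, `grad`, `hess`, `hessSq` and `laplaceBeltrami`.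
Local isometries of coordinate metrics: `R202.Tens.Pull`.
-/

set_option autoImplicit false

open scoped ContDiff
open Crest.GeometryTopology.CoordMetric Crest.GeometryTopology.ChartCurvature
  Crest.GeometryTopology.MetricFamily

noncomputable section

namespace Crest.Agent.N207

/-- model space -/
abbrev En (n : ℕ) : Type := EuclideanSpace ℝ (Fin n)

/-- `ℝ⁴` -/
abbrev E4 : Type := En 4

/-- component array of a covariant `k`-tensor at one point -/
abbrev Arr (n k : ℕ) : Type := (Fin k → Fin n) → ℝ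

/-- component arrays of a covariant `k`-tensor field -/
abbrev Tn (n k : ℕ) : Type := En n → Arr n k

variable {n k : ℕ}

/-- the multilinear form of an array, evaluated on `k` vectors -/
def evT (A : Arr n k) (v : Fin k → En n) : ℝ := ∑ J : Fin k → Fin n, (∏ s, v s (J s)) * A J

/-- components of an array in the frame `e` -/
def frA (e : Fin n → En n) (A : Arr n k) : Arr n k := fun I => evT A fun s => e (I s)

/-- inner product of arrays for the INVERSE metric matrix `H` -/
def ipA (H : Matrix (Fin n) (Fin n) ℝ) (A B : Arr n k) : ℝ :=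
  ∑ I : Fin k → Fin n, ∑ J : Fin k → Fin n, (∏ s, H (I s) (J s)) * (A I * B J)

/-- smooth components on `U` -/
def SmT (T : Tn n k) (U : Set (En n)) : Prop := ∀ I, ContDiffOn ℝ ∞ (fun y => T y I) U

/-- covariant derivative; the new index is index `0` -/
def cov (G : MetricField n) (T : Tn n k) : Tn n (k + 1) := fun y J =>
  pderiv (J 0) (fun z => T z (Fin.tail J)) y -
    ∑ s : Fin k, ∑ m, christoffel G y m (J 0) (Fin.tail J s) *
      T y (Function.update (Fin.tail J) s m)

/-- iterated covariant derivative `∇ʲ T` -/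
def covN (G : MetricField n) (T : Tn n k) : (j : ℕ) → Tn n (k + j)
  | 0 => T
  | j + 1 => cov G (covN G T j)

/-- `⟨S, T⟩_G` -/
def ip (G : MetricField n) (S T : Tn n k) (y : En n) : ℝ := ipA (G y)⁻¹ (S y) (T y)

/-- `|T|²_G` -/
def nsq (G : MetricField n) (T : Tn n k) (y : En n) : ℝ := ip G T T y

/-- trace over the indices `0, 1` -/
def trT (G : MetricField n) (T : Tn n (k + 2)) : Tn n k := fun y I =>
  ∑ a, ∑ b, (G y)⁻¹ a b * T y (Fin.cons a (Fin.cons b I))

/-- divergence in the index `0` -/
def divT (G : MetricField n) (T : Tn n (k + 1)) : Tn n k := trT G (cov G T)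

/-- rough Laplacian -/
def lapT (G : MetricField n) (T : Tn n k) : Tn n k := trT G (cov G (cov G T))

/-- contraction `⟨S, T⟩` over ALL indices of `S` and the LAST `k` indices of `T`: a 1-form.
`conT G S (cov G T)` is the 1-form `⟨S, ∇T⟩`. -/
def conT (G : MetricField n) (S : Tn n k) (T : Tn n (k + 1)) : Tn n 1 := fun y I =>
  ipA (G y)⁻¹ (S y) fun J => T y (Fin.cons (I 0) J)

/-- product of a function and a tensor -/
def smT (f : En n → ℝ) (T : Tn n k) : Tn n k := fun y I => f y * T y I

/-- a function as a `0`-tensor -/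
def fnT (f : En n → ℝ) : Tn n 0 := fun y _ => f y

/-- `df` -/
def dT (f : En n → ℝ) : Tn n 1 := fun y I => pderiv (I 0) f y

/-- `Hess f = ∇df` -/
def hessT (G : MetricField n) (f : En n → ℝ) : Tn n 2 := cov G (dT f)

/-- a matrix field as a `2`-tensor; `matT G` is the metric -/
def matT (A : MetricField n) : Tn n 2 := fun y I => A y (I 0) (I 1)

/-- Ricci tensor -/
def ricT (G : MetricField n) : Tn n 2 := fun y I => ricci G y (I 0) (I 1)

/-- Riemann tensor `R_{lkij} = ⟨R(∂ᵢ,∂ⱼ)∂ₖ, ∂ₗ⟩`; `Ric_{kj} = g^{li} R_{lkij}` -/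
def rmT (G : MetricField n) : Tn n 4 := fun y I => riemannLower G y (I 0) (I 1) (I 2) (I 3)

/-- pull-back by `Φ` -/
def pullT (Φ : En n → En n) (T : Tn n k) : Tn n k := fun y I =>
  evT (T (Φ y)) fun s => fderiv ℝ Φ y (EuclideanSpace.single (I s) 1)

/-- a time dependent coordinate metric, jointly smooth and positive definite on `J × U` -/
structure CFam (G : ℝ → MetricField n) (J : Set ℝ) (U : Set (En n)) : Prop where
  isOpen : IsOpen U
  sm : ∀ i j, ContDiffOn ℝ ∞ (fun p : ℝ × En n => G p.1 p.2 i j) (J ×ˢ U)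
  pos : ∀ t ∈ J, ∀ y ∈ U, (G t y).PosDef

/-- a Ricci flow in coordinates on the OPEN set `J × U` -/
structure CFlow (G : ℝ → MetricField n) (J : Set ℝ) (U : Set (En n)) : Prop
    extends CFam G J U where
  isOpenJ : IsOpen J
  rf : ∀ t ∈ J, ∀ y ∈ U, ∀ i j, HasDerivAt (fun s => G s y i j) (-2 * ricci (G t) y i j) t

/-- jointly smooth components on `J × U` -/
def SmTT (T : ℝ → Tn n k) (J : Set ℝ) (U : Set (En n)) : Prop :=
  ∀ I, ContDiffOn ℝ ∞ (fun p : ℝ × En n => T p.1 p.2 I) (J ×ˢ U)

/-- time derivative of the components -/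
def dtT (T : ℝ → Tn n k) (t : ℝ) : Tn n k := fun y I => deriv (fun s => T s y I) t

/-- Uhlenbeck's time derivative along a Ricci flow, `Dₜ T = ∂ₜ T + ∑ₛ T(.., Ric^♯ ·, ..)`:
`∂ₜ ⟨S, T⟩ = ⟨Dₜ S, T⟩ + ⟨S, Dₜ T⟩`. -/
def DtT (G : ℝ → MetricField n) (T : ℝ → Tn n k) (t : ℝ) : Tn n k := fun y I =>
  dtT T t y I + ∑ s : Fin k, ∑ a, ∑ b,
    ricci (G t) y (I s) a * (G t y)⁻¹ a b * T t y (Function.update I s b)

/-- the heat operator `Dₜ - Δ` on tensors -/
def boxT (G : ℝ → MetricField n) (T : ℝ → Tn n k) (t : ℝ) : Tn n k := fun y I =>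
  DtT G T t y I - lapT (G t) (T t) y I

end Crest.Agent.N207

end
private theorem rz_eb8140ef39 : type_of% @_root_.Crest.Agent.N207.covN.eq_def := @_root_.Crest.Agent.N207.covN.eq_def -- L59
private theorem rz_722602aac1 : type_of% @_root_.Crest.Agent.N207.covN.eq_1 := @_root_.Crest.Agent.N207.covN.eq_1 -- L59
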